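import Mathlib
import Vale.Agent.P150.Main
import Vale.Agent.P150.Crit23.Main
import Vale.Agent.P150.Lower.Main
import Vale.Agent.P150.Fast.Final

/-!
SK Glauber dynamics mixes fast exactly below `β = 1`: for every `β < 1` the spectral gap has order
one and time `O(log n)` suffices; mixing takes time at least of order `log n` at every `β`; from
`β = 1` on it is slow at least like `n ^ (2 / 3 - δ)`.
-/

open MeasureTheory Filter

namespace Vale.Agent.Results.P150.SharpThreshold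

theorem result :
    (∀ β : ℝ, 0 ≤ β → β < 1 → ∃ A : ℝ, 0 < A ∧ ∀ ε : ℝ, 0 < ε →
      ∀ᶠ n : ℕ in atTop, ENNReal.ofReal (1 - ε) ≤ Vale.Agent.P150.disorder n
        {g | 1 / A ≤ Vale.Agent.P150.gap n β g ∧ Vale.Agent.P150.gap n β g ≤ 1 ∧
          ∀ t, A * Real.log n ≤ t → Vale.Agent.P150.MixedBy n β g t}) ∧
    (∀ β : ℝ, 0 ≤ β → ∃ c : ℝ, 0 < c ∧ ∀ ε : ℝ, 0 < ε →
      ∀ᶠ n : ℕ in atTop, ENNReal.ofReal (1 - ε) ≤ Vale.Agent.P150.disorder n
        {g | ∀ t, 0 ≤ t → Vale.Agent.P150.MixedBy n β g t → c * Real.log n ≤ t}) ∧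
    (∀ β : ℝ, 1 ≤ β → ∀ ε : ℝ, 0 < ε →
      (∀ δ : ℝ, 0 < δ → ∀ᶠ n : ℕ in atTop, ENNReal.ofReal (1 - ε) ≤ Vale.Agent.P150.disorder n
        {g | Vale.Agent.P150.gap n β g ≤ (n : ℝ) ^ (-((2 : ℝ) / 3 - δ)) ∧
          ∀ t, 0 ≤ t → Vale.Agent.P150.MixedBy n β g t → (n : ℝ) ^ ((2 : ℝ) / 3 - δ) ≤ t}) ∧
      (1 < β → ∃ c : ℝ, 0 < c ∧ ∀ᶠ n : ℕ in atTop, ENNReal.ofReal (1 - ε) ≤ Vale.Agent.P150.disorder n
        {g | Vale.Agent.P150.gap n β g ≤ 1 / (c * n) ∧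
          ∀ t, 0 ≤ t → Vale.Agent.P150.MixedBy n β g t → c * n ≤ t})) := by
  refine ⟨fun _ h0 h1 => Vale.Agent.P150.Fast.fast_all h0 h1,
    fun _ h0 => Vale.Agent.P150.Lower.lower_log h0, ?_⟩
  intro β hβ ε hε
  refine ⟨fun δ hδ => ?_, fun h => Vale.Agent.P150.slow_tight h hε⟩
  rcases hβ.lt_or_eq with h | h
  · obtain ⟨c, hc, hev⟩ := Vale.Agent.P150.slow_tight h hε
    filter_upwards [hev, eventually_ge_atTop 1,
      ((tendsto_rpow_atTop (show 0 < (1 : ℝ) / 3 + δ by linarith)).comp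
        tendsto_natCast_atTop_atTop).eventually_ge_atTop (1 / c)] with n hn hn1 hbig
    refine hn.trans (measure_mono fun g hg => ?_)
    have hn0 : (0 : ℝ) < n := by exact_mod_cast hn1
    simp only [Function.comp_apply] at hbig
    rw [div_le_iff₀ hc] at hbig
    have hk : (n : ℝ) ^ ((2 : ℝ) / 3 - δ) ≤ c * n := by
      refine (le_mul_of_one_le_left (by positivity) hbig).trans_eq ?_
      rw [mul_comm _ c, mul_assoc, ← Real.rpow_add hn0]
      norm_num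
    refine ⟨hg.1.trans ?_, fun t ht hm => hk.trans (hg.2 t ht hm)⟩
    rw [Real.rpow_neg hn0.le, ← one_div]
    exact one_div_le_one_div_of_le (by positivity) hk
  · subst h
    exact Vale.Agent.P150.Crit23.slow_two_thirds hδ hε

end Vale.Agent.Results.P150.SharpThreshold
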